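import Mathlib

/-!
P194: abstract part. Lifting of one-sided inverses and of idempotents along a ring homomorphism
under which elements with image 1 are units; trace functions.
-/

namespace Vale.Agent.P194

/-- conjugate idempotents: two idempotents with the same image have the same trace -/
theorem tr_eq {S T A : Type*} [Ring S] [Ring T] [AddCommGroup A] (φ : S →+* T)
    (hφ : ∀ x, φ x = 1 → IsUnit x) (τ : S → A) (hτ : ∀ x y, τ (x * y) = τ (y * x))
    (e f : S) (he : e * e = e) (hf : f * f = f) (hef : φ e = φ f) : τ e = τ f := by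
  have h1 : φ (e * f + (1 - e) * (1 - f)) = 1 := by
    have h2 : φ f * φ f = φ f := by rw [← map_mul, hf]
    simp only [map_add, map_mul, map_sub, map_one, hef]
    noncomm_ring
    rw [h2]
    abel
  obtain ⟨u, hu⟩ := hφ _ h1
  have h3 : e * (u : S) = (u : S) * f := by
    rw [hu]
    have e1 : e * (e * f + (1 - e) * (1 - f)) = (e * e) * f + (e - e * e) * (1 - f) := by
      noncomm_ring
    have e2 : (e * f + (1 - e) * (1 - f)) * f = e * (f * f) + (1 - e) * (f - f * f) := by
      noncomm_ring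
    rw [e1, e2, he, hf]
    simp
  have h4 : f = (↑u⁻¹ : S) * (e * (u : S)) := by
    rw [h3, ← mul_assoc, Units.inv_mul, one_mul]
  have h5 : e = e * (u : S) * (↑u⁻¹ : S) := by
    rw [mul_assoc, Units.mul_inv, mul_one]
  rw [h4, hτ, ← h5]

/-- the abstract statement: if `a b = 1` and `1 - b a` is equivalent to the image of an idempotent
`E`, then the trace of `E` is the trace of `0` -/
theorem tr_zero {S T A : Type*} [Ring S] [Ring T] [AddCommGroup A] (φ : S →+* T)
    (hφ : ∀ x, φ x = 1 → IsUnit x) (hsurj : Function.Surjective φ) (τ : S →+ A)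
    (hτ : ∀ x y, τ (x * y) = τ (y * x))
    (a b x y : T) (hab : a * b = 1) (E : S) (hE : E * E = E) (hxy : x * y = 1 - b * a)
    (hyx : y * x = φ E) : τ E = 0 := by
  obtain ⟨a', ha⟩ := hsurj a
  obtain ⟨b0, hb⟩ := hsurj b
  have h1 : φ (a' * b0) = 1 := by rw [map_mul, ha, hb, hab]
  obtain ⟨u, hu⟩ := hφ _ h1
  have hu1 : φ (↑u⁻¹ : S) = 1 := by
    have h2 : φ ((u : S) * (↑u⁻¹ : S)) = 1 := by rw [Units.mul_inv, map_one]
    rw [map_mul, hu, h1, one_mul] at h2
    exact h2
  set b' : S := b0 * (↑u⁻¹ : S) with hb'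
  have hab' : a' * b' = 1 := by rw [hb', ← mul_assoc, ← hu, Units.mul_inv]
  have hφb : φ b' = b := by rw [hb', map_mul, hu1, mul_one, hb]
  set e : S := 1 - b' * a' with he
  have hee : e * e = e := by
    have : e * e = 1 - b' * a' - b' * a' + b' * (a' * b') * a' := by rw [he]; noncomm_ring
    rw [this, hab', mul_one, he]
    noncomm_ring
  have hτe : τ e = 0 := by
    rw [he, map_sub, hτ b' a', hab', sub_self]
  have hφe : φ e = x * y := by rw [he, map_sub, map_one, map_mul, hφb, ha, hxy]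
  obtain ⟨X, hX⟩ := hsurj x
  obtain ⟨Y, hY⟩ := hsurj y
  have hxyi : (x * y) * (x * y) = x * y := by rw [← hφe, ← map_mul, hee]
  have hyxi : (y * x) * (y * x) = y * x := by rw [hyx, ← map_mul, hE]
  set p : S := e * X * E with hp
  set q : S := E * Y * e with hq
  have hep : e * p = p := by rw [hp, ← mul_assoc, ← mul_assoc, hee]
  have hpE : p * E = p := by rw [hp, mul_assoc, hE]
  have hEq : E * q = q := by rw [hq, ← mul_assoc, ← mul_assoc, hE]
  have hqe : q * e = q := by rw [hq, mul_assoc, hee]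
  have hφp : φ p = x * y * x * (y * x) := by rw [hp, map_mul, map_mul, hφe, hX, hyx]
  have hφq : φ q = y * x * y * (x * y) := by rw [hq, map_mul, map_mul, hφe, hY, hyx]
  have hφpq : φ (p * q) = x * y := by
    rw [map_mul, hφp, hφq]
    calc x * y * x * (y * x) * (y * x * y * (x * y))
        = ((x * y) * (x * y)) * ((x * y) * (x * y)) * (x * y) := by noncomm_ring
      _ = x * y := by rw [hxyi, hxyi, hxyi]
  have hφqp : φ (q * p) = y * x := by
    rw [map_mul, hφp, hφq]
    calc y * x * y * (x * y) * (x * y * x * (y * x))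
        = ((y * x) * (y * x)) * ((y * x) * (y * x)) * (y * x) := by noncomm_ring
      _ = y * x := by rw [hyxi, hyxi, hyxi]
  have h5 : φ (p * q + (1 - e)) = 1 := by
    rw [map_add, hφpq, map_sub, map_one, hφe]
    abel
  obtain ⟨v, hv⟩ := hφ _ h5
  have hev : e * (v : S) = p * q := by
    rw [hv, mul_add, ← mul_assoc, hep, mul_sub, hee, mul_one, sub_self, add_zero]
  have hve : (v : S) * e = p * q := by
    rw [hv, add_mul, mul_assoc, hqe, sub_mul, hee, one_mul, sub_self, add_zero]
  have hvi : φ (↑v⁻¹ : S) = 1 := by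
    have h2 : φ ((v : S) * (↑v⁻¹ : S)) = 1 := by rw [Units.mul_inv, map_one]
    rw [map_mul, hv, h5, one_mul] at h2
    exact h2
  have h6 : p * (q * (↑v⁻¹ : S)) = e := by
    rw [← mul_assoc, ← hev, mul_assoc, Units.mul_inv, mul_one]
  have h7 : (q * (↑v⁻¹ : S) * p) * (q * (↑v⁻¹ : S) * p) = q * (↑v⁻¹ : S) * p := by
    calc (q * (↑v⁻¹ : S) * p) * (q * (↑v⁻¹ : S) * p)
        = q * (↑v⁻¹ : S) * ((p * (q * (↑v⁻¹ : S))) * p) := by noncomm_ring
      _ = q * (↑v⁻¹ : S) * p := by rw [h6, hep]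
  have h8 : φ (q * (↑v⁻¹ : S) * p) = φ E := by
    rw [map_mul, map_mul, hvi, mul_one, ← map_mul, hφqp, hyx]
  have h9 := tr_eq φ hφ τ hτ _ _ h7 hE h8
  rw [← h9, hτ, h6, hτe]

end Vale.Agent.P194
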