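import Vale.Agent.Lib.P194.Abs

/-!
P194: matrices over group rings: kernel of reduction is nil, trace, regular representation.
-/

namespace Vale.Agent.P194

open Finset

noncomputable section

variable {A K G : Type*} [CommRing A] [Field K] [Group G] {n : Type} [Fintype n] [DecidableEq n]

/-- matrices over the group ring -/
abbrev MG (n : Type) (A G : Type*) [CommRing A] [Group G] := Matrix n n (MonoidAlgebra A G)

/-- reduction of coefficients -/
def red (n : Type) [Fintype n] [DecidableEq n] (G : Type*) [Group G] {A K : Type*} [CommRing A] [CommRing K] (π : A →+* K) :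
    MG n A G →+* MG n K G :=
  (MonoidAlgebra.mapRingHom G π).mapMatrix

theorem red_coeff {A K : Type*} [CommRing A] [CommRing K] (π : A →+* K) (x : MG n A G)
    (i j : n) (g : G) : (red n G π x i j).coeff g = π ((x i j).coeff g) := by
  simp [red]

theorem red_surj {A K : Type*} [CommRing A] [CommRing K] (π : A →+* K)
    (hπ : Function.Surjective π) : Function.Surjective (red n G π) := by
  intro y
  have h : Function.Surjective (MonoidAlgebra.mapRingHom G π) :=
    MonoidAlgebra.map_surjective (π : A →+ K) hπ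
  choose f hf using h
  refine ⟨fun i j => f (y i j), ?_⟩
  ext i j : 2
  exact congrArg MonoidAlgebra.coeff (hf (y i j))

/-- product of filtered elements -/
theorem filt_mul (I : Ideal A) (k : ℕ) (x y : MG n A G)
    (hx : ∀ i j g, (x i j).coeff g ∈ I) (hy : ∀ i j g, (y i j).coeff g ∈ I ^ k) :
    ∀ i j g, ((x * y) i j).coeff g ∈ I ^ (k + 1) := by
  classical
  intro i j g
  rw [Matrix.mul_apply, MonoidAlgebra.coeff_sum, Finsupp.finsetSum_apply]
  refine Submodule.sum_mem _ fun l _ => ?_
  rw [MonoidAlgebra.coeff_mul, Finsupp.sum]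
  refine Submodule.sum_mem _ fun a _ => ?_
  rw [Finsupp.sum]
  refine Submodule.sum_mem _ fun b _ => ?_
  split_ifs
  · rw [pow_succ']
    exact Ideal.mul_mem_mul (hx i l a) (hy l j b)
  · exact Submodule.zero_mem _

theorem red_unit {A K : Type*} [CommRing A] [CommRing K] (π : A →+* K) (m : ℕ)
    (hm : (RingHom.ker π) ^ m = ⊥) (x : MG n A G) (hx : red n G π x = 1) : IsUnit x := by
  have h1 : ∀ i j g, ((x - 1) i j).coeff g ∈ RingHom.ker π := by
    intro i j g
    rw [RingHom.mem_ker, ← red_coeff, map_sub, hx, map_one, sub_self]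
    simp
  have h2 : ∀ k : ℕ, ∀ i j g, (((x - 1) ^ (k + 1)) i j).coeff g ∈ (RingHom.ker π) ^ (k + 1) := by
    intro k
    induction k with
    | zero => intro i j g; rw [zero_add, pow_one, pow_one]; exact h1 i j g
    | succ k ih =>
      intro i j g
      rw [pow_succ' (x - 1)]
      exact filt_mul (RingHom.ker π) (k + 1) (x - 1) _ h1 ih i j g
  have h3 : (x - 1) ^ (m + 1) = 0 := by
    ext i j g
    have h4 := h2 m i j g
    have h5 : (RingHom.ker π) ^ (m + 1) = ⊥ := by rw [pow_succ, hm, Ideal.bot_mul]
    rw [h5] at h4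
    simpa using h4
  have h6 : IsNilpotent (x - 1) := ⟨m + 1, h3⟩
  have h7 := h6.isUnit_one_add
  rwa [add_sub_cancel] at h7

/-- trace -/
def tau (n : Type) [Fintype n] (A G : Type*) [CommRing A] [Group G] : MG n A G →+ A where
  toFun x := ∑ i, (x i i).coeff 1
  map_zero' := by simp
  map_add' x y := by simp [Finset.sum_add_distrib]

theorem coeff_one_comm (f g : MonoidAlgebra A G) : (f * g).coeff 1 = (g * f).coeff 1 := by
  rw [MonoidAlgebra.coeff_mul_apply_left, MonoidAlgebra.coeff_mul_apply_right]
  refine Finsupp.sum_congr fun a _ => ?_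
  rw [mul_one, one_mul, mul_comm]

theorem tau_comm (x y : MG n A G) : tau n A G (x * y) = tau n A G (y * x) := by
  show ∑ i, ((x * y) i i).coeff 1 = ∑ i, ((y * x) i i).coeff 1
  simp only [Matrix.mul_apply, MonoidAlgebra.coeff_sum, Finsupp.finsetSum_apply]
  rw [Finset.sum_comm]
  exact Finset.sum_congr rfl fun i _ => Finset.sum_congr rfl fun j _ => coeff_one_comm _ _

/-- induction from `H` to `G` -/
def ind (n : Type) [Fintype n] [DecidableEq n] (A : Type*) [CommRing A] {H G : Type*} [Group H] [Group G] (ι : H →* G) :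
    MG n A H →+* MG n A G :=
  (MonoidAlgebra.mapDomainRingHom A ι).mapMatrix

theorem tau_ind {H : Type*} [Group H] (ι : H →* G) (hι : Function.Injective ι) (x : MG n A H) :
    tau n A G (ind n A ι x) = tau n A H x := by
  show ∑ i, ((ind n A ι x) i i).coeff 1 = ∑ i, (x i i).coeff 1
  refine Finset.sum_congr rfl fun i _ => ?_
  show (MonoidAlgebra.mapDomain ι (x i i)).coeff 1 = _
  have h1 : (1 : G) = ι 1 := (map_one ι).symm
  rw [h1]
  exact Finsupp.mapDomain_apply hι _ _

theorem red_ind {A K : Type*} [CommRing A] [CommRing K] (π : A →+* K) {H : Type*} [Group H]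
    (ι : H →* G) (x : MG n A H) : red n G π (ind n A ι x) = ind n K ι (red n H π x) := by
  ext i j : 2
  have h := MonoidAlgebra.mapRingHom_comp_mapDomainRingHom π ι
  exact congrArg MonoidAlgebra.coeff (DFunLike.congr_fun h (x i j))

/-- regular representation -/
def rho (n : Type) (A H : Type*) [CommRing A] [Group H] [Fintype H] (x : MG n A H) :
    Matrix (n × H) (n × H) A := fun a b => (x a.1 b.1).coeff (a.2 * b.2⁻¹)

theorem rho_mul {H : Type*} [Group H] [Fintype H] (x y : MG n A H) :
    rho n A H (x * y) = rho n A H x * rho n A H y := by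
  classical
  ext ⟨i, g⟩ ⟨j, h⟩
  show ((x * y) i j).coeff (g * h⁻¹) = _
  rw [Matrix.mul_apply, Matrix.mul_apply, Fintype.sum_prod_type, MonoidAlgebra.coeff_sum,
    Finsupp.finsetSum_apply]
  refine Finset.sum_congr rfl fun l _ => ?_
  rw [MonoidAlgebra.coeff_mul_apply_left, Finsupp.sum_fintype _ _ (fun a => by simp)]
  refine Fintype.sum_equiv ((Equiv.inv H).trans (Equiv.mulRight g)) _ _ fun a => ?_
  show _ = (x i l).coeff (g * (a⁻¹ * g)⁻¹) * (y l j).coeff (a⁻¹ * g * h⁻¹)
  congr 2
  · group
  · group

theorem rho_zero {H : Type*} [Group H] [Fintype H] (x : MG n A H) (hx : rho n A H x = 0) :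
    x = 0 := by
  ext i j g
  have h := congrFun (congrFun hx (i, g)) (j, 1)
  simpa [rho] using h

theorem rho_trace {H : Type*} [Group H] [Fintype H] (x : MG n A H) :
    (rho n A H x).trace = Fintype.card H * tau n A H x := by
  show ∑ a : n × H, (x a.1 a.1).coeff (a.2 * a.2⁻¹) = _ * ∑ i, (x i i).coeff 1
  rw [Fintype.sum_prod_type, Finset.mul_sum]
  refine Finset.sum_congr rfl fun i _ => ?_
  simp

theorem rho_red {A K : Type*} [CommRing A] [CommRing K] (π : A →+* K) {H : Type*} [Group H]
    [Fintype H] (x : MG n A H) : (rho n A H x).map π = rho n K H (red n H π x) := by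
  ext a b
  show π ((x a.1 b.1).coeff _) = (red n H π x a.1 b.1).coeff _
  rw [red_coeff]

end

end Vale.Agent.P194
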