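import Vale.Agent.Lib.P194.Abs

/-!
P194: the trace of an idempotent matrix over `A` is the rank of its reduction.
-/

namespace Vale.Agent.P194

open Finset

noncomputable section

/-- rank factorization of an idempotent matrix over a field -/
theorem rank_fact {K : Type*} [Field K] {ι : Type*} [Fintype ι] [DecidableEq ι]
    (e : Matrix ι ι K) (he : e * e = e) :
    ∃ (r : ℕ) (X : Matrix ι (Fin r) K) (Y : Matrix (Fin r) ι K), r ≤ Fintype.card ι ∧
      X * Y = e ∧ Y * X = 1 := by
  set f : (ι → K) →ₗ[K] (ι → K) := Matrix.toLin' e with hf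
  have hff : ∀ v, f (f v) = f v := by
    intro v
    rw [hf, Matrix.toLin'_apply, Matrix.toLin'_apply, Matrix.mulVec_mulVec, he]
  let R := LinearMap.range f
  let b : Module.Basis (Fin (Module.finrank K R)) K R := Module.finBasis K R
  refine ⟨Module.finrank K R, LinearMap.toMatrix b (Pi.basisFun K ι) R.subtype,
    LinearMap.toMatrix (Pi.basisFun K ι) b f.rangeRestrict, ?_, ?_, ?_⟩
  · have h := Submodule.finrank_le R
    simpa using h
  · rw [← LinearMap.toMatrix_comp (Pi.basisFun K ι) b (Pi.basisFun K ι)]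
    have h1 : R.subtype ∘ₗ f.rangeRestrict = f := by
      ext v; rfl
    rw [h1, LinearMap.toMatrix_eq_toMatrix', hf, LinearMap.toMatrix'_toLin']
  · rw [← LinearMap.toMatrix_comp b (Pi.basisFun K ι) b]
    have h1 : f.rangeRestrict ∘ₗ R.subtype = LinearMap.id := by
      refine LinearMap.ext fun v => Subtype.ext ?_
      obtain ⟨w, hw⟩ := v.2
      show f (v : ι → K) = (v : ι → K)
      rw [← hw, hff]
    rw [h1, LinearMap.toMatrix_id]

theorem mat_unit {A K : Type*} [CommRing A] [CommRing K] (π : A →+* K) (m : ℕ)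
    (hm : (RingHom.ker π) ^ m = ⊥) {ι : Type*} [Fintype ι] [DecidableEq ι] (x : Matrix ι ι A)
    (hx : x.map π = 1) : IsUnit x := by
  rw [Matrix.isUnit_iff_isUnit_det]
  have h1 : π x.det = 1 := by
    rw [RingHom.map_det]
    show (x.map π).det = 1
    rw [hx, Matrix.det_one]
  have h2 : x.det - 1 ∈ RingHom.ker π := by
    rw [RingHom.mem_ker, map_sub, h1, map_one, sub_self]
  have h3 : IsNilpotent (x.det - 1) := by
    refine ⟨m, ?_⟩
    have h4 := Ideal.pow_mem_pow h2 m
    rw [hm] at h4
    simpa using h4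
  have h4 := h3.isUnit_one_add
  rwa [add_sub_cancel] at h4

/-- the trace of an idempotent matrix is a natural number, the rank of its reduction -/
theorem trace_idem {A K : Type*} [CommRing A] [Field K] (π : A →+* K)
    (hπ : Function.Surjective π) (m : ℕ) (hm : (RingHom.ker π) ^ m = ⊥) {ι : Type*} [Fintype ι]
    [DecidableEq ι] (P : Matrix ι ι A) (hP : P * P = P) :
    ∃ r : ℕ, r ≤ Fintype.card ι ∧ P.trace = (r : A) ∧ (r = 0 → P.map π = 0) := by
  have he : (P.map π) * (P.map π) = P.map π := by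
    rw [← Matrix.map_mul, hP]
  obtain ⟨r, X, Y, hr, hXY, hYX⟩ := rank_fact (P.map π) he
  refine ⟨r, hr, ?_, ?_⟩
  · obtain ⟨s, hs⟩ := hπ.hasRightInverse
    set X' : Matrix ι (Fin r) A := X.map s with hX'
    set Y' : Matrix (Fin r) ι A := Y.map s with hY'
    have hX1 : X'.map π = X := by
      ext i j
      simp [hX', hs (X i j)]
    have hY1 : Y'.map π = Y := by
      ext i j
      simp [hY', hs (Y i j)]
    have h1 : (Y' * X').map π = 1 := by rw [Matrix.map_mul, hX1, hY1, hYX]
    obtain ⟨u, hu⟩ := mat_unit π m hm _ h1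
    have hu1 : (↑u⁻¹ : Matrix (Fin r) (Fin r) A).map π = 1 := by
      have h2 : (((u : Matrix (Fin r) (Fin r) A) * (↑u⁻¹ : Matrix (Fin r) (Fin r) A))).map π =
          (1 : Matrix (Fin r) (Fin r) K) := by
        rw [Units.mul_inv]
        simp
      rw [Matrix.map_mul, hu, h1, one_mul] at h2
      exact h2
    set Q : Matrix ι ι A := X' * (↑u⁻¹ : Matrix (Fin r) (Fin r) A) * Y' with hQ
    have hQQ : Q * Q = Q := by
      have h2 : Q * Q = X' * (↑u⁻¹ : Matrix (Fin r) (Fin r) A) * (Y' * X') *
          (↑u⁻¹ : Matrix (Fin r) (Fin r) A) * Y' := by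
        rw [hQ]; simp only [Matrix.mul_assoc]
      rw [h2, ← hu, Matrix.mul_assoc X', Units.inv_mul, Matrix.mul_one, ← hQ]
    have hQπ : Q.map π = P.map π := by
      rw [hQ, Matrix.map_mul, Matrix.map_mul, hu1, Matrix.mul_one, hX1, hY1, hXY]
    have h3 : P.trace = Q.trace := by
      refine tr_eq (π.mapMatrix : Matrix ι ι A →+* Matrix ι ι K) (fun x hx => mat_unit π m hm x hx)
        Matrix.trace Matrix.trace_mul_comm P Q hP hQQ hQπ.symm
    rw [h3, hQ, Matrix.trace_mul_comm, ← Matrix.mul_assoc, ← hu, Units.mul_inv, Matrix.trace_one,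
      Fintype.card_fin]
  · intro h0
    subst h0
    rw [← hXY]
    ext i j
    simp [Matrix.mul_apply]

end

end Vale.Agent.P194
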