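import Mathlib

/-!
P194: for every field `K` of characteristic `p` and every `N` there is a commutative ring `A` with
a surjection `A → K` whose kernel is nilpotent and such that `1, ..., N` are nonzero in `A`.
-/

namespace Vale.Agent.P194

open WittVector

theorem J_pow (p : ℕ) [hp : Fact p.Prime] (K : Type*) [Field K] [CharP K p] (m : ℕ) :
    ∀ x ∈ (RingHom.ker (WittVector.constantCoeff : WittVector p K →+* K)) ^ m,
      ∀ i < m, x.coeff i = 0 := by
  induction m with
  | zero => intro x _ i hi; exact absurd hi (Nat.not_lt_zero i)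
  | succ m ih =>
    intro x hx
    rw [pow_succ] at hx
    refine Submodule.mul_induction_on hx ?_ ?_
    · intro y hy z hz
      have hy' : y = verschiebung^[m] (y.shift m) := eq_iterate_verschiebung (ih y hy)
      have hz' : z = verschiebung^[1] (z.shift 1) := by
        refine eq_iterate_verschiebung ?_
        intro i hi
        have : i = 0 := by omega
        subst this
        exact hz
      intro i hi
      rw [hy', hz', iterate_verschiebung_mul]
      exact iterate_verschiebung_coeff_eq_zero _ hi
    · intro y z hy hz i hi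
      have h1 : verschiebung^[m+1] (y.shift (m+1)) = y := (eq_iterate_verschiebung hy).symm
      have h2 : verschiebung^[m+1] (z.shift (m+1)) = z := (eq_iterate_verschiebung hz).symm
      rw [← h1, ← h2, ← iterate_map_add]
      exact iterate_verschiebung_coeff_eq_zero _ hi

theorem exists_ring.{u} (p : ℕ) [hp : Fact p.Prime] (K : Type u) [Field K] [CharP K p] (N : ℕ) :
    ∃ (A : Type u) (_ : CommRing A) (π : A →+* K) (m : ℕ), Function.Surjective π ∧
      (RingHom.ker π) ^ m = ⊥ ∧ ∀ r : ℕ, r ≤ N → (r : A) = 0 → r = 0 := by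
  set J : Ideal (WittVector p K) := RingHom.ker (WittVector.constantCoeff : WittVector p K →+* K)
    with hJ
  obtain ⟨m, hm⟩ : ∃ m : ℕ, N < p ^ m := ⟨N, Nat.lt_pow_self hp.out.one_lt⟩
  have hle : ∀ x ∈ J ^ (m + 1), (WittVector.constantCoeff : WittVector p K →+* K) x = 0 :=
    fun x hx => Ideal.pow_le_self (Nat.succ_ne_zero m) hx
  refine ⟨WittVector p K ⧸ J ^ (m + 1), inferInstance,
    Ideal.Quotient.lift (J ^ (m + 1)) WittVector.constantCoeff hle, m + 1, ?_, ?_, ?_⟩
  · intro y
    obtain ⟨x, hx⟩ := constantCoeff_surjective p y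
    exact ⟨Ideal.Quotient.mk _ x, by rw [Ideal.Quotient.lift_mk]; exact hx⟩
  · have h1 : RingHom.ker (Ideal.Quotient.lift (J ^ (m + 1)) WittVector.constantCoeff hle) ≤
        J.map (Ideal.Quotient.mk (J ^ (m + 1))) := by
      intro y hy
      obtain ⟨x, rfl⟩ := Ideal.Quotient.mk_surjective y
      refine Ideal.mem_map_of_mem _ ?_
      rw [RingHom.mem_ker, Ideal.Quotient.lift_mk] at hy
      exact hy
    rw [eq_bot_iff]
    refine (Ideal.pow_right_mono h1 (m + 1)).trans ?_
    rw [← Ideal.map_pow, Ideal.map_quotient_self]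
  · intro r hr h0
    by_contra hne
    have h1 : (r : WittVector p K) ∈ J ^ (m + 1) := by
      rw [← Ideal.Quotient.eq_zero_iff_mem, map_natCast]
      exact h0
    obtain ⟨v, u, hu, hru⟩ := Nat.exists_eq_pow_mul_and_not_dvd hne p hp.out.ne_one
    have hv : v < m + 1 := by
      have h2 : p ^ v ≤ r := by
        rw [hru]
        exact Nat.le_mul_of_pos_right _ (Nat.pos_of_ne_zero (by rintro rfl; exact hu (dvd_zero p)))
      have h3 : p ^ v < p ^ m := lt_of_le_of_lt (h2.trans hr) hm
      exact ((Nat.pow_lt_pow_iff_right hp.out.one_lt).1 h3).trans (Nat.lt_succ_self m)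
    have hunit : IsUnit (u : WittVector p K) := by
      refine isUnit_of_coeff_zero_ne_zero _ ?_
      have h2 : (WittVector.constantCoeff : WittVector p K →+* K) (u : WittVector p K) = (u : K) :=
        map_natCast _ u
      have h3 : (u : WittVector p K).coeff 0 = (u : K) := h2
      rw [h3, Ne, CharP.cast_eq_zero_iff K p u]
      exact hu
    obtain ⟨w, hw⟩ := hunit.exists_right_inv
    have h4 : (p : WittVector p K) ^ v ∈ J ^ (m + 1) := by
      have h5 : (p : WittVector p K) ^ v = (r : WittVector p K) * w := by
        rw [hru, Nat.cast_mul, Nat.cast_pow, mul_assoc, hw, mul_one]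
      rw [h5]
      exact Ideal.mul_mem_right _ _ h1
    have h6 := J_pow p K (m + 1) _ h4 v hv
    rw [coeff_p_pow] at h6
    exact one_ne_zero h6

end Vale.Agent.P194
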