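import Vale.Agent.Lib.P194.Grp
import Vale.Agent.Lib.P194.Rank
import Vale.Agent.Lib.P194.Witt

/-!
P194: one-sided inverses over group rings in characteristic p: the idempotent `1 - b a` is never
equivalent to a nonzero idempotent supported in a finite subgroup.
-/

namespace Vale.Agent.P194

open Finset

noncomputable section

theorem main.{u, v, w} (p : ℕ) [Fact p.Prime] (K : Type u) [Field K] [CharP K p] (G : Type v)
    [Group G] (H : Type w) [Group H] [Finite H] (ι : H →* G) (hι : Function.Injective ι)
    (n : Type) [Fintype n] [DecidableEq n]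
    (a b x y : MG n K G) (E : MG n K H) (hab : a * b = 1) (hE : E * E = E)
    (hxy : x * y = 1 - b * a) (hyx : y * x = ind n K ι E) : b * a = 1 := by
  classical
  have := Fintype.ofFinite H
  obtain ⟨A, iA, π, m, hπ, hm, hN⟩ := exists_ring p K (Fintype.card (n × H))
  -- lift the idempotent `E`
  have hnil : ∀ z ∈ RingHom.ker (red n H π), IsNilpotent z := by
    intro z hz
    have h1 : IsUnit (1 + z) := red_unit π m hm _ (by rw [map_add, map_one]; rw [hz, add_zero])
    have h2 : ∀ i j g, (z i j).coeff g ∈ RingHom.ker π := by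
      intro i j g
      rw [RingHom.mem_ker, ← red_coeff, hz]
      simp
    have h3 : ∀ k : ℕ, ∀ i j g, ((z ^ (k + 1)) i j).coeff g ∈ (RingHom.ker π) ^ (k + 1) := by
      intro k
      induction k with
      | zero => intro i j g; rw [zero_add, pow_one, pow_one]; exact h2 i j g
      | succ k ih =>
        intro i j g
        rw [pow_succ' z]
        exact filt_mul (RingHom.ker π) (k + 1) z _ h2 ih i j g
    refine ⟨m + 1, ?_⟩
    ext i j g
    have h4 := h3 m i j g
    have h5 : (RingHom.ker π) ^ (m + 1) = ⊥ := by rw [pow_succ, hm, Ideal.bot_mul]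
    rw [h5] at h4
    simpa using h4
  obtain ⟨E', hE', hE'2⟩ := exists_isIdempotentElem_eq_of_ker_isNilpotent (red n H π) hnil E
    (red_surj π hπ E) hE
  have h1 : tau n A G (ind n A ι E') = 0 := by
    refine tr_zero (red n G π) (fun z hz => red_unit π m hm z hz) (red_surj π hπ) (tau n A G)
      tau_comm a b x y hab _ ?_ hxy ?_
    · rw [← map_mul]; exact congrArg _ hE'
    · rw [red_ind, hE'2, hyx]
  rw [tau_ind ι hι] at h1
  obtain ⟨r, hr, hr2, hr3⟩ := trace_idem π hπ m hm (rho n A H E') (by
    rw [← rho_mul]; exact congrArg _ hE')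
  rw [rho_trace, h1, mul_zero] at hr2
  have h2 := hr3 (hN r hr hr2.symm)
  rw [rho_red, hE'2] at h2
  have h3 := rho_zero E h2
  rw [h3, map_zero] at hyx
  have h4 : (x * y) * (x * y) = x * y := by
    rw [hxy]
    calc (1 - b * a) * (1 - b * a) = 1 - b * a - b * a + b * (a * b) * a := by noncomm_ring
      _ = 1 - b * a := by rw [hab, mul_one]; abel
  have h5 : x * y = 0 := by
    rw [← h4, mul_assoc, ← mul_assoc y, hyx, zero_mul, mul_zero]
  rw [hxy] at h5
  exact (sub_eq_zero.1 h5).symm

end

end Vale.Agent.P194
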