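import Vale.Agent.Lib.P194.Main

/-!
P194: matrix form with an idempotent of arbitrary size, and the support form.
-/

namespace Vale.Agent.P194

open Finset

noncomputable section

theorem main2.{u, v} (p : ℕ) [Fact p.Prime] (K : Type u) [Field K] [CharP K p] (G : Type v)
    [Group G] (n k : ℕ) (a b : Matrix (Fin n) (Fin n) (MonoidAlgebra K G)) (hab : a * b = 1)
    (H : Subgroup G) (hH : Finite H) (E : Matrix (Fin k) (Fin k) (MonoidAlgebra K H))
    (x : Matrix (Fin n) (Fin k) (MonoidAlgebra K G)) (y : Matrix (Fin k) (Fin n) (MonoidAlgebra K G))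
    (hE : E * E = E) (hxy : x * y = 1 - b * a)
    (hyx : y * x = E.map (MonoidAlgebra.mapDomain H.subtype)) : b * a = 1 := by
  have h := main p K G H H.subtype (Subgroup.subtype_injective H) (Fin n ⊕ Fin k)
    (Matrix.fromBlocks a 0 0 1) (Matrix.fromBlocks b 0 0 1) (Matrix.fromBlocks 0 x 0 0)
    (Matrix.fromBlocks 0 0 y 0) (Matrix.fromBlocks 0 0 0 E)
    (by simp [Matrix.fromBlocks_multiply, hab, Matrix.fromBlocks_one])
    (by simp [Matrix.fromBlocks_multiply, hE])
    (by
      rw [Matrix.fromBlocks_multiply, Matrix.fromBlocks_multiply, ← Matrix.fromBlocks_one,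
        eq_sub_iff_add_eq, Matrix.fromBlocks_add]
      simp [hxy])
    (by
      rw [Matrix.fromBlocks_multiply]
      have e1 : ind (Fin n ⊕ Fin k) K H.subtype (Matrix.fromBlocks 0 0 0 E) =
          Matrix.fromBlocks 0 0 0 (E.map (MonoidAlgebra.mapDomain H.subtype)) := by
        show (Matrix.fromBlocks 0 0 0 E).map (MonoidAlgebra.mapDomain H.subtype) = _
        rw [Matrix.fromBlocks_map]
        simp [MonoidAlgebra.mapDomain_zero]
      rw [e1, ← hyx]
      simp)
  have h2 : (Matrix.fromBlocks (b * a) 0 0 1 : Matrix (Fin n ⊕ Fin k) (Fin n ⊕ Fin k)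
      (MonoidAlgebra K G)) = Matrix.fromBlocks 1 0 0 1 := by
    rw [Matrix.fromBlocks_one, ← h, Matrix.fromBlocks_multiply]
    simp
  exact (Matrix.fromBlocks_inj.1 h2).1

theorem main3.{u, v} (p : ℕ) [Fact p.Prime] (K : Type u) [Field K] [CharP K p] (G : Type v)
    [Group G] (n : ℕ) (a b : Matrix (Fin n) (Fin n) (MonoidAlgebra K G)) (hab : a * b = 1)
    (H : Subgroup G) (hH : Finite H)
    (hs : ∀ i j g, ((b * a) i j).coeff g ≠ 0 → g ∈ H) : b * a = 1 := by
  classical
  set e : Matrix (Fin n) (Fin n) (MonoidAlgebra K G) := 1 - b * a with he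
  have hee : e * e = e := by
    rw [he]
    calc (1 - b * a) * (1 - b * a) = 1 - b * a - b * a + b * (a * b) * a := by noncomm_ring
      _ = 1 - b * a := by rw [hab, mul_one]; abel
  have hs' : ∀ i j g, (e i j).coeff g ≠ 0 → g ∈ H := by
    intro i j g hg
    by_contra hgH
    apply hg
    have h1 : ((b * a) i j).coeff g = 0 := by
      by_contra h2
      exact hgH (hs i j g h2)
    have h2 : ((1 : Matrix (Fin n) (Fin n) (MonoidAlgebra K G)) i j).coeff g = 0 := by
      rw [Matrix.one_apply]
      split_ifs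
      · rw [MonoidAlgebra.one_def, MonoidAlgebra.coeff_single, Finsupp.single_apply, if_neg]
        rintro rfl
        exact hgH H.one_mem
      · rfl
    rw [he, Matrix.sub_apply, MonoidAlgebra.coeff_sub, Finsupp.sub_apply, h1, h2, sub_zero]
  let E : Matrix (Fin n) (Fin n) (MonoidAlgebra K H) := fun i j =>
    MonoidAlgebra.comapDomain (H.subtype) (Subgroup.subtype_injective H) (e i j)
  have hE1 : E.map (MonoidAlgebra.mapDomain H.subtype) = e := by
    ext i j : 2
    refine congrArg MonoidAlgebra.coeff (MonoidAlgebra.mapDomain_comapDomain ?_ _)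
    intro g hg
    exact ⟨⟨g, hs' i j g (Finsupp.mem_support_iff.1 hg)⟩, rfl⟩
  have hinj : Function.Injective (ind (Fin n) K H.subtype) := by
    intro z w hzw
    ext i j : 2
    have h1 : MonoidAlgebra.mapDomain H.subtype (z i j) = MonoidAlgebra.mapDomain H.subtype (w i j) :=
      congrFun (congrFun hzw i) j
    exact congrArg MonoidAlgebra.coeff
      (MonoidAlgebra.mapDomain_injective (Subgroup.subtype_injective H) h1)
  have hE2 : E * E = E := by
    apply hinj
    rw [map_mul]
    have h1 : ind (Fin n) K H.subtype E = e := hE1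
    rw [h1, hee]
  exact main2 p K G n n a b hab H hH E e e hE2 hee (by rw [hee, hE1])

end

end Vale.Agent.P194
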